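import Vale.Agent.P011.F3.Main
import Vale.Agent.P011.Pow.QEnd
import Vale.Agent.P011.One.SettingOf
import Vale.Agent.P011.Tpl.H359.Ind
import Vale.Agent.P011.Tpl.H359.QGen
import Vale.Agent.P011.Tpl.H359.Base6
import Vale.Agent.P011.Tpl.H359.SgdOf
import Vale.Agent.P011.Tpl.H541.Step
import Vale.Agent.P011.Tpl.H7.UDefs

open Matrix Module Topology NumberField
open scoped commutatorElement

namespace Vale.Agent.Results.P011.AllOuterA

open Vale.Agent.P011S Vale.Agent.P011.One

/-- The Margulis-Platonov conjecture for the anisotropic special unitary groups over number fields.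

(1) `SU_m(D, h)`, where `D` is a noncommutative central division algebra of arbitrary degree over a
number field `K` with an arbitrary involution of the second kind and `h` is an arbitrary
anisotropic hermitian form. If `m ≥ 3`, every noncentral normal subgroup is the whole group, and
the group is perfect and simple modulo its centre. If `m ≥ 2`, it has no proper subgroup of finite
index, and it is the commutator subgroup of the unitary group.

(2) `G(k) = SU_1(D, *)`, `D` a central division algebra of degree `n` over a number field `K` with an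
arbitrary involution `*` of the second kind with fixed field `k`, where `n = 2 ^ e ≥ 4`, or
`n = 3 * 2 ^ e ≥ 6` and `G(k_v)` is at no real place `v` of `k` isomorphic to `SU(n - 1, 1)` and the
number of elements of the residue field of a finite place of `k` at which `G` is anisotropic is
never `1` modulo `3`: the diagonal map `δ` from `G(k)` to the product `H_A` of the groups `G(k_v)`
over the finite places `v` of `k` at which `G` is anisotropic has dense image, and every subgroup
`N` of finite index is the preimage of an open subgroup `W`, which is normal if `N` is. -/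
theorem result :
    (∀ {K D F : Type} [Field K] [NumberField K] [StarRing K] [DivisionRing D] [StarRing D]
      [Algebra K D] [StarModule K D] [FiniteDimensional K D] [Algebra.IsCentral K D] [Field F]
      [Algebra K F], (∃ k : K, star k ≠ k) →
      ∀ {n : ℕ}, 2 ≤ n → finrank K D = n ^ 2 → ∀ (f : D →ₐ[K] Matrix (Fin n) (Fin n) F)
        {m : ℕ}, 2 ≤ m → ∀ H : Matrix (Fin m) (Fin m) D, IsAnisotropicForm H → MPSimple f H) ∧
    (∀ {k K D F : Type} [Field k] [NumberField k] [Field K] [NumberField K] [Algebra k K]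
      [StarRing K] [DivisionRing D] [StarRing D] [Algebra k D] [Algebra K D] [IsScalarTower k K D]
      [StarModule K D] [FiniteDimensional K D] [Algebra.IsCentral K D] [Field F] [Algebra K F],
      (∀ x : K, star x = x ↔ x ∈ Set.range (algebraMap k K)) → (∃ x : K, star x ≠ x) →
      ∀ {n : ℕ}, finrank K D = n ^ 2 →
      ((∃ e, 2 ≤ e ∧ n = 2 ^ e) ∨
        ((∃ e, 1 ≤ e ∧ n = 3 * 2 ^ e) ∧ ¬ HasSigOne K D n ∧
          ∀ v ∈ Adiv k K D, Nat.card (𝓞 k ⧸ v.asIdeal) % 3 ≠ 1)) →
      ∀ f : D →ₐ[K] Matrix (Fin n) (Fin n) F, MPOpen k f) := by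
  refine ⟨?_, ?_⟩
  · intro K D F _ _ _ _ _ _ _ _ _ _ _ hK n hn hdeg f m hm H hH
    obtain ⟨h1, h2, h3⟩ := Vale.Agent.P011.F3.all_clauses hK hn hdeg f hm H hH
    exact ⟨h3, h1, h2⟩
  · intro k K D F _ _ _ _ _ _ _ _ _ _ _ _ _ _ _ _ hfix hK n hdeg hcase f
    obtain ⟨d, s, hS⟩ := exists_setting (D := D) hfix hK
    rcases hcase with ⟨e, he, rfl⟩ | ⟨⟨e, he, hn⟩, hR, hA⟩
    · exact (Vale.Agent.P011.Pow.mp_two he).q1 he hS (star_fixed hfix) hdeg f
    · have hsg : Vale.Agent.P011.Tpl.Sgd K D n := Vale.Agent.P011.Tpl.H359.sgd_of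
        fun σ g i₀ h1 h2 h3 => hR ⟨σ, g, i₀, h1, h2, h3⟩
      obtain ⟨e', rfl⟩ : ∃ e', e = e' + 1 := ⟨e - 1, by omega⟩
      have hn' : n = 2 * (3 * 2 ^ e') := by
        rw [hn, pow_succ]
        ring
      have h1 : 1 ≤ 2 ^ e' := Nat.one_le_two_pow
      have h3 : ∀ r : ℕ, 3 ≤ 3 * 2 ^ r := fun r => by
        have : 1 ≤ 2 ^ r := Nat.one_le_two_pow
        omega
      subst hn'
      exact Vale.Agent.P011.Tpl.H359.q1_gen (by omega) hS (star_fixed hfix) hdeg
        (Vale.Agent.P011.Tpl.H359.mp_ind (P := fun q => q % 3 ≠ 1) (l₀ := 3) (by norm_num)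
          (fun k K D _ _ _ _ _ _ _ _ _ _ _ d s hS hdeg hsg hG =>
            Vale.Agent.P011.Tpl.H359.mp_six hS hdeg hsg hG)
          (fun r => Vale.Agent.P011.Tpl.H541.stepT (h3 r))
          (fun r => Vale.Agent.P011.Tpl.H541.stepS (h3 r)) e' k K D d s hS hdeg hsg hA) f

end Vale.Agent.Results.P011.AllOuterA
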