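import Vale.Agent.P011.D4.IF.Asm
import Vale.Agent.P011.D4H.ZFin
import Vale.Agent.P011.D4W.Fin

open Module NumberField

namespace Vale.Agent.Results.P011.AllTrialitarian

open Vale.Agent.P011.D4 Vale.Agent.P011.D4T Vale.Agent.P011.D4I Vale.Agent.P011.D4H

/-- The Margulis-Platonov conjecture for all anisotropic trialitarian groups over number fields.

(1) Trivial Tits class: let `L` be a cubic extension, cyclic or not, of the number field `k`, with
Galois closure `M`, and let `C = (a, b, c)` be an octonion division algebra over `k`. Then the
trialitarian group `TD4 L ρ a b c` of `L` and `C` is simple as an abstract group.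

(2) Nontrivial Tits class, cyclic cubic extensions: let `E / k` be a cyclic extension of degree six,
`ρ` and `σ` its automorphisms of orders three and two, `α` an element of `E` with `ρ(α) = α`,
`σ(α) = -α`, `α ^ 2 = a`, let `q` be an element fixed by `σ` with `q ρ(q) ρ²(q) = 1`, and let
`C = (a, b, c)` be an octonion division algebra over `k`, definite at the real places where `a` is
negative, where `q` is totally positive at one of these places. Then the group `TT ρ σ α q a b c`
has no proper subgroup of finite index.

(3) Nontrivial Tits class, noncyclic cubic extensions: let `L / k` be a noncyclic cubic extension,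
`E` the compositum of the Galois closure of `L` and of `k(α)`, of degree twelve over `k`, where
`α ^ 2 = a`, let `ρ`, `σ`, `ι` be automorphisms of `E / k` of orders three, two, two, where `σ` is
central, `ι ρ = ρ² ι`, `ρ(α) = ι(α) = α`, `σ(α) = -α`, and `L` is the fixed field of `σ` and `ρ ι`,
let `q` be an element of `L` with `q ρ(q) ρ²(q) = 1`, and let `C = (a, b, c)` be an octonion division
algebra over `k`, definite at the real places where `a` is negative, where `q` is positive at the
real places of `L` over one of these places. Then the group `TI ρ σ ι α q a b c` has no proper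
subgroup of finite index. -/
theorem result :
    (∀ {k L M : Type} [Field k] [NumberField k] [Field L] [Algebra k L] [Field M] [Algebra k M]
      [Algebra L M] [IsScalarTower k L M] [FiniteDimensional k M] [IsNormalClosure k L M],
      finrank k L = 3 → ∀ ρ : M ≃ₐ[k] M, ρ ≠ 1 → ρ ^ 3 = 1 → ∀ {a b c : kˣ},
      Oct.Division a b c → IsSimpleP (TD4 L ρ a b c)) ∧
    (∀ {k E : Type} [Field k] [NumberField k] [Field E] [Algebra k E] (ρ σ : E ≃ₐ[k] E) (α q : E)
      (a b c : kˣ), IsDataR ρ σ α q a b c → NoIndex (TT ρ σ α q a b c)) ∧
    (∀ {k L E : Type} [Field k] [NumberField k] [Field L] [NumberField L] [Field E] [Algebra k L]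
      [Algebra k E] [Algebra L E] [IsScalarTower k L E] (ρ σ ι : E ≃ₐ[k] E) (α : E)
      (a b c : kˣ) (q : Lˣ), IsDataIR ρ σ ι α a b c q →
      NoIndex (TI ρ σ ι α (algebraMap L E (q : L)) a b c)) :=
  ⟨fun hL ρ hρ hρ3 _ _ _ hC N hN => (IF.td4_simple hL ρ hρ hρ3 hC N).1 hN,
    fun _ _ _ _ _ _ _ H => tt_noIndex H,
    fun _ _ _ _ _ _ _ _ H => Vale.Agent.P011.D4W.ti_noIndex H⟩

end Vale.Agent.Results.P011.AllTrialitarian
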